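import Vale.Agent.P181.TQ.Defs

set_option autoImplicit false

/-!
# P181, TQ, (T5): the end of the argument for both parities
-/

open scoped TensorProduct

namespace Vale.Agent.P181.TQ.H820

open Vale.Agent.P181 Vale.Agent.P181.H280 Vale.Agent.P181.H73 Vale.Agent.P181.TQ Finset
  MvPolynomial

/-- **(T5)**: `H73.endE` for `permP κ`, `κ + e` even. -/
theorem endS : EndStmt := by
  intro r b lam F hs hHW t e d D κ hb he hed hD hm hanti h3
  set xs : Fin (r + 1) → MvPolynomial (Fin (r + 1)) ℂ := fun i => X i with hxs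
  have hxL : ∀ i, xs i ∈ linS (r + 1) := fun i => X_mem_linS _
  apply descent lam F hs hHW (e + t) (by omega) (fun i => by
    have := hanti i
    omega)
  intro P hP
  refine peel (linS (r + 1)) (d + 1 - e) (b - (e + t)) _ (by omega) (by omega) ?_ P hP
  intro ξ hξ Q hQ
  have hQ' : ∀ i, Q i ∈ linS (r + 1) ^ D := by
    intro i
    have h1 : b - (e + t) - (d + 1 - e) = D := by omega
    rw [← h1]
    exact hQ i
  set Y := ∏ s, ξ s with hY
  have hYm : Y ∈ linS (r + 1) ^ (d + 1 - e) := prod_mem_pow _ _ hξ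
  obtain ⟨d', hd'⟩ : ∃ d', d = d' + e := ⟨d - e, by omega⟩
  have hde : d + 1 - e = d' + 1 := by omega
  -- the column property after all contractions
  have hcol : Col (linS (r + 1)) d' (permP (κ + e) Q ((altC xs)^[e + t] F)) := by
    have h1 := h3 Q hQ'
    rw [hd'] at h1
    have h2 := Col.altC_iter hxL e d' _ h1
    rw [altC_iter_permP, ← Function.iterate_add_apply] at h2
    exact h2
  have hHW2 : HWForm (fun i => (X i : MvPolynomial (Fin (r + 1)) ℂ)) (fun i => pderiv i)
      (fun b => linS (r + 1) ^ b) (d' + D + 1) (fun i => (lam i : ℂ) - ((e + t : ℕ) : ℂ))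
      ((altC xs)^[e + t] F) :=
    hwForm_iter lam F hHW (e + t) (d' + D + 1) (by omega)
  have hc : (lam (Fin.last r) : ℂ) - ((e + t : ℕ) : ℂ) = 0 := by
    rw [hm, add_comm e t, sub_self]
  have hzero : permP (κ + e) Q ((altC xs)^[e + t] F) (fun _ => Y) = 0 := by
    refine end_zero' ?_ hcol _ (fun i => by rw [← hde]; exact hYm)
    intro P' hP' i R hR hPR
    rw [permP_apply]
    apply Finset.sum_eq_zero
    intro π _
    have hall : ∀ k, P' (π k) * Q k ∈ linS (r + 1) ^ (d' + D + 1) := by
      intro k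
      rw [show d' + D + 1 = (d' + 1) + D by omega, pow_add]
      exact Submodule.mul_mem_mul (hP' _) (hQ' _)
    rw [last_kill hHW2 hc (fun k => P' (π k) * Q k) hall (π.symm i) (R * Q (π.symm i)) (by
      rw [pow_add]
      exact Submodule.mul_mem_mul hR (hQ' _)) (by
      show P' (π (π.symm i)) * Q (π.symm i) = _
      rw [Equiv.apply_symm_apply, hPR, mul_assoc]), mul_zero]
  rw [permP_const he] at hzero
  refine (mul_eq_zero.1 hzero).resolve_left ?_
  exact_mod_cast Fintype.card_ne_zero

end Vale.Agent.P181.TQ.H820
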